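import Mathlib.Algebra.Ring.IsFormallyReal
import Mathlib.Analysis.Complex.AbsMax
import Mathlib.Analysis.Complex.ExponentialBounds
import Mathlib.Analysis.Fourier.AddCircle
import Mathlib.Analysis.Real.Pi.Bounds
import Mathlib.Analysis.SpecialFunctions.Complex.LogDeriv
import Mathlib.Computability.Reduce
import Mathlib.Data.Int.Star
import Mathlib.Tactic
import Mathlib.Topology.UniformSpace.Uniformizable

/-! The part of Mathlib that the development of this folder uses. -/
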